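import Vale.Agent.P011.D4Z.H68.TopI
import Vale.Agent.P011.D4Z.H714.OuterI
import Vale.Agent.P011.D4Z.H342.OneI
import Vale.Agent.P011.D4Z.H408.LimI
import Vale.Agent.P011.D4Z.H319.Lim0I
import Vale.Agent.P011.D4Z.H63.End2I

/-!
Block D4Z, groups of noncyclic cubic extensions: the related triples commuting with `J` and `I`
lie in the group of the moves.
-/

open Topology NumberField

namespace Vale.Agent.P011.D4Z

open Vale.Agent.P011.MPQ Vale.Agent.P011.D4 Vale.Agent.P011.D4.Oct Vale.Agent.P011.D4X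
open Vale.Agent.P011.D4Y
open Vale.Agent.P011.E6
open scoped ComplexConjugate

variable {k L E : Type} [Field k] [NumberField k] [Field L] [NumberField L] [Field E]
  [NumberField E] [Algebra k L] [Algebra k E] [Algebra L E]
  [IsScalarTower k L E] [NeZero (2 : E)] {ρ σ ι : E ≃ₐ[k] E} {α : E}
  {a b c : kˣ} {q : Lˣ}

/-- **The moves fill up**: `GTI ≤ RsI`. -/
theorem gt_topI (H : HyI ρ σ ι α a b c q)
    (hX : ∀ τ : k →+* ℝ, τ a < 0 → τ b < 0 ∧ τ c < 0) (ho : HOdd a q) :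
    GTI ρ σ ι α a b c q ≤ RsI ρ σ ι α a b c q := by
  refine H68.gt_topI_of H hX ho ?_
  intro g hg _ W hW hW' hW'' h0 h1 Y hY
  exact H342.one_placeI_of H hX W hW hW' hW'' h0 h1
    (fun U hU Y hY x y => H714.clg_bilI H U hU hg hY x y)
    (fun U hU Y hY x => H714.clg_JI U hU hg hY x)
    (fun Y hY x y => H714.clg_triI W _ _ hW hW' hW'' rfl rfl hg hY x y)
    (fun W' W'' hW' hW'' h' h'' _ _ _ _ h _ _ _ n1 n2 n3 r1 r2 r3 =>
      zlim_xI H ho W W' W'' hW hW' hW'' h' h'' h n1 n2 n3 r1 r2 r3)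
    (fun h _ n0 r0 => zlim_0I H ho W hW h n0 r0)
    (fun X Y Z ht hN hJ _ _ hu hv hu1 hv1 hX =>
      H63.end_reflI H W _ _ hW.1 rfl rfl ht hN hJ hu hv hu1 hv1 hX)
    hY

end Vale.Agent.P011.D4Z
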