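import Vale.Agent.P011.D4X.H637.Conj

/-!
Block D4Z, row T3a: quaternions of norm one near given real quaternions of norm one.
-/

open NumberField Topology

namespace Vale.Agent.P011.D4Z.H370

open Vale.Agent.P011.MPQ Vale.Agent.P011.D4X.H637

/-- A real pure quaternion of norm one. -/
theorem exists_pure {A B : ℝ} (hA : A ≠ 0) (hB : B ≠ 0) :
    ∃ t : QuaternionAlgebra ℝ A 0 B, t.re = 0 ∧ qn t = 1 := by
  rcases lt_or_gt_of_ne hA with hA | hA
  · have h : 0 < -A := by linarith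
    refine ⟨⟨0, 1 / √(-A), 0, 0⟩, rfl, ?_⟩
    have h1 : √(-A) ^ 2 = -A := Real.sq_sqrt h.le
    have h2 : √(-A) ≠ 0 := (Real.sqrt_pos.2 h).ne'
    simp only [qn]
    rw [div_pow, h1]
    field_simp
    ring
  · rcases lt_or_gt_of_ne hB with hB | hB
    · have h : 0 < -B := by linarith
      refine ⟨⟨0, 0, 1 / √(-B), 0⟩, rfl, ?_⟩
      have h1 : √(-B) ^ 2 = -B := Real.sq_sqrt h.le
      have h2 : √(-B) ≠ 0 := (Real.sqrt_pos.2 h).ne'
      simp only [qn]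
      rw [div_pow, h1]
      field_simp
      ring
    · have h : 0 < A * B := mul_pos hA hB
      refine ⟨⟨0, 0, 0, 1 / √(A * B)⟩, rfl, ?_⟩
      have h1 : √(A * B) ^ 2 = A * B := Real.sq_sqrt h.le
      have h2 : √(A * B) ≠ 0 := (Real.sqrt_pos.2 h).ne'
      simp only [qn]
      rw [div_pow, h1]
      field_simp
      ring

theorem qn_mul {R : Type} [CommRing R] {A B : R} (x y : QuaternionAlgebra R A 0 B) :
    qn (x * y) = qn x * qn y := by
  simp only [qn, QuaternionAlgebra.re_mul, QuaternionAlgebra.imI_mul, QuaternionAlgebra.imJ_mul,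
    QuaternionAlgebra.imK_mul]
  ring

theorem qn_star {R : Type} [CommRing R] {A B : R} (x : QuaternionAlgebra R A 0 B) :
    qn (star x) = qn x := by
  simp [qn]

/-- A quaternion of norm one with real part different from one is near a rational one. -/
theorem exists_sl1_near_ne {F : Type} [Field F] [NumberField F] {A B : Fˣ}
    (S : Finset (F →+* ℝ)) (X : ∀ τ : F →+* ℝ, QuaternionAlgebra ℝ (τ A) 0 (τ B))
    (hX : ∀ τ ∈ S, qn (X τ) = 1) (hne : ∀ τ ∈ S, (X τ).re ≠ 1) {ε : ℝ} (hε : 0 < ε) :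
    ∃ x : Qt A B, nrd x = 1 ∧ ∀ τ ∈ S, |τ x.re - (X τ).re| < ε ∧
      |τ x.imI - (X τ).imI| < ε ∧ |τ x.imJ - (X τ).imJ| < ε ∧
        |τ x.imK - (X τ).imK| < ε := by
  obtain ⟨z, hz, h⟩ := exists_quadric (![1, -A, -B, A * B] : Fin 4 → F) ![1, 0, 0, 0] S
    (fun τ => ![(X τ).re, (X τ).imI, (X τ).imJ, (X τ).imK]) (fun τ hτ => by
      have h1 := hX τ hτ
      simp only [qn] at h1
      simp only [Fin.sum_univ_four, Matrix.cons_val, map_one, map_zero, map_neg, map_mul]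
      linear_combination h1) (fun τ hτ => by
      have h1 := hX τ hτ
      have h2 := hne τ hτ
      simp only [qn] at h1
      simp only [Fin.sum_univ_four, Matrix.cons_val, map_one, map_zero, map_neg, map_mul]
      intro h3
      apply h2
      linear_combination (1 / 2) * h1 - (1 / 2) * h3) hε
  refine ⟨⟨z 0, z 1, z 2, z 3⟩, ?_, fun τ hτ => ⟨?_, ?_, ?_, ?_⟩⟩
  · simp only [Fin.sum_univ_four, Matrix.cons_val] at hz
    simp only [nrd]
    linear_combination hz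
  · exact h τ hτ 0
  · exact h τ hτ 1
  · exact h τ hτ 2
  · exact h τ hτ 3

/-- The product is continuous. -/
theorem mul_near {A B : ℝ} (x y : QuaternionAlgebra ℝ A 0 B) {ε : ℝ} (hε : 0 < ε) :
    ∃ δ : ℝ, 0 < δ ∧ ∀ x' y' : QuaternionAlgebra ℝ A 0 B,
      (|x'.re - x.re| < δ ∧ |x'.imI - x.imI| < δ ∧ |x'.imJ - x.imJ| < δ ∧
        |x'.imK - x.imK| < δ) →
      (|y'.re - y.re| < δ ∧ |y'.imI - y.imI| < δ ∧ |y'.imJ - y.imJ| < δ ∧
        |y'.imK - y.imK| < δ) →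
      |(x' * y').re - (x * y).re| < ε ∧ |(x' * y').imI - (x * y).imI| < ε ∧
        |(x' * y').imJ - (x * y).imJ| < ε ∧ |(x' * y').imK - (x * y).imK| < ε := by
  let f : Fin 4 → (Fin 4 → ℝ) × (Fin 4 → ℝ) → ℝ := fun i p =>
    ![(mk4 A B p.1 * mk4 A B p.2).re, (mk4 A B p.1 * mk4 A B p.2).imI,
      (mk4 A B p.1 * mk4 A B p.2).imJ, (mk4 A B p.1 * mk4 A B p.2).imK] i
  have hf : Continuous fun p => fun i => f i p := by
    refine continuous_pi fun i => ?_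
    fin_cases i <;>
      simp only [f, mk4, QuaternionAlgebra.re_mul, QuaternionAlgebra.imI_mul,
        QuaternionAlgebra.imJ_mul, QuaternionAlgebra.imK_mul, Fin.zero_eta, Fin.mk_one,
        Fin.reduceFinMk, Matrix.cons_val] <;> fun_prop
  let p0 : (Fin 4 → ℝ) × (Fin 4 → ℝ) := (![x.re, x.imI, x.imJ, x.imK],
    ![y.re, y.imI, y.imJ, y.imK])
  obtain ⟨δ, hδ, h⟩ := Metric.continuous_iff.1 hf p0 ε hε
  refine ⟨δ, hδ, fun x' y' hx hy => ?_⟩
  obtain ⟨x0, x1, x2, x3⟩ := hx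
  obtain ⟨y0, y1, y2, y3⟩ := hy
  have h1 := h (![x'.re, x'.imI, x'.imJ, x'.imK], ![y'.re, y'.imI, y'.imJ, y'.imK]) (by
    rw [Prod.dist_eq, max_lt_iff, dist_pi_lt_iff hδ, dist_pi_lt_iff hδ]
    constructor
    · intro i
      fin_cases i
      · exact x0
      · exact x1
      · exact x2
      · exact x3
    · intro i
      fin_cases i
      · exact y0
      · exact y1
      · exact y2
      · exact y3)
  rw [dist_pi_lt_iff hε] at h1
  exact ⟨h1 0, h1 1, h1 2, h1 3⟩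

/-- **Weak approximation for the quaternions of norm one**, at real places. -/
theorem exists_sl1_near {F : Type} [Field F] [NumberField F] {A B : Fˣ}
    (S : Finset (F →+* ℝ)) (X : ∀ τ : F →+* ℝ, QuaternionAlgebra ℝ (τ A) 0 (τ B))
    (hX : ∀ τ ∈ S, qn (X τ) = 1) {ε : ℝ} (hε : 0 < ε) :
    ∃ x : Qt A B, nrd x = 1 ∧ ∀ τ ∈ S, |τ x.re - (X τ).re| < ε ∧
      |τ x.imI - (X τ).imI| < ε ∧ |τ x.imJ - (X τ).imJ| < ε ∧
        |τ x.imK - (X τ).imK| < ε := by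
  classical
  have hA : ∀ τ : F →+* ℝ, τ A ≠ 0 := fun τ => (map_ne_zero τ).2 A.ne_zero
  have hB : ∀ τ : F →+* ℝ, τ B ≠ 0 := fun τ => (map_ne_zero τ).2 B.ne_zero
  -- a pure factor
  have hs : ∀ τ : F →+* ℝ, ∃ s : QuaternionAlgebra ℝ (τ A) 0 (τ B), s.re = 0 ∧ qn s = 1 ∧
      (X τ * s).re ≠ 1 := by
    intro τ
    obtain ⟨t, h1, h2⟩ := exists_pure (hA τ) (hB τ)
    by_cases h : (X τ * t).re = 1
    · refine ⟨-t, by rw [QuaternionAlgebra.re_neg, h1, neg_zero], by simpa [qn] using h2, ?_⟩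
      rw [mul_neg, QuaternionAlgebra.re_neg, h]
      norm_num
    · exact ⟨t, h1, h2, h⟩
  choose s hs0 hs1 hs2 using hs
  have hd : ∀ τ : F →+* ℝ, ∃ δ : ℝ, 0 < δ ∧ ∀ x' y' : QuaternionAlgebra ℝ (τ A) 0 (τ B),
      (|x'.re - (X τ * s τ).re| < δ ∧ |x'.imI - (X τ * s τ).imI| < δ ∧
        |x'.imJ - (X τ * s τ).imJ| < δ ∧ |x'.imK - (X τ * s τ).imK| < δ) →
      (|y'.re - (star (s τ)).re| < δ ∧ |y'.imI - (star (s τ)).imI| < δ ∧
        |y'.imJ - (star (s τ)).imJ| < δ ∧ |y'.imK - (star (s τ)).imK| < δ) →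
      |(x' * y').re - (X τ * s τ * star (s τ)).re| < ε ∧
        |(x' * y').imI - (X τ * s τ * star (s τ)).imI| < ε ∧
        |(x' * y').imJ - (X τ * s τ * star (s τ)).imJ| < ε ∧
        |(x' * y').imK - (X τ * s τ * star (s τ)).imK| < ε := fun τ => mul_near _ _ hε
  choose δ hδ hd using hd
  obtain ⟨δ0, hδ0, hδ1⟩ : ∃ δ0 : ℝ, 0 < δ0 ∧ ∀ τ : F →+* ℝ, δ0 ≤ δ τ := by
    rcases isEmpty_or_nonempty (F →+* ℝ) with h | h
    · exact ⟨1, one_pos, fun τ => (h.false τ).elim⟩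
    · obtain ⟨τ₀, h0⟩ := Finite.exists_min δ
      exact ⟨δ τ₀, hδ τ₀, h0⟩
  obtain ⟨x, hx, hx'⟩ := exists_sl1_near_ne S (fun τ => X τ * s τ)
    (fun τ hτ => by rw [qn_mul, hX τ hτ, hs1, one_mul]) (fun τ _ => hs2 τ) hδ0
  obtain ⟨y, hy, hy'⟩ := exists_sl1_near_ne S (fun τ => star (s τ))
    (fun τ hτ => by rw [qn_star, hs1])
    (fun τ _ => by rw [QuaternionAlgebra.re_star, hs0]; simp) hδ0
  refine ⟨x * y, by rw [nrd_mul, hx, hy, one_mul], fun τ hτ => ?_⟩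
  have e : X τ * s τ * star (s τ) = X τ := by
    rw [mul_assoc, mul_star_qn, hs1, one_smul, mul_one]
  have h1 := hx' τ hτ
  have h2 := hy' τ hτ
  have h3 := hd τ (rt τ x) (rt τ y)
    ⟨h1.1.trans_le (hδ1 τ), h1.2.1.trans_le (hδ1 τ), h1.2.2.1.trans_le (hδ1 τ),
      h1.2.2.2.trans_le (hδ1 τ)⟩
    ⟨h2.1.trans_le (hδ1 τ), h2.2.1.trans_le (hδ1 τ), h2.2.2.1.trans_le (hδ1 τ),
      h2.2.2.2.trans_le (hδ1 τ)⟩
  rw [e, ← rt_mul] at h3
  exact h3

end Vale.Agent.P011.D4Z.H370
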