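import Vale.Agent.P011.D4Z.H553.Blk
import Vale.Agent.P011.D4Y.H69.NearI

/-!
Block D4Z, 6D4 case (after helper553): the block moves.
-/

open Topology

set_option linter.unusedSectionVars false

namespace Vale.Agent.P011.D4Z

open Vale.Agent.P011.MPQ Vale.Agent.P011.D4 Vale.Agent.P011.D4.Oct Vale.Agent.P011.D4X
open Vale.Agent.P011.E6
open scoped ComplexConjugate

namespace H370

open H553

section final

variable {k L E : Type} [Field k] [Field L] [Field E] [Algebra k L] [Algebra k E] [Algebra L E]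
  [IsScalarTower k L E] [NeZero (2 : E)] {ρ σ ι : E ≃ₐ[k] E} {α : E}
  {a b c : kˣ} {q : Lˣ} (H : D4Y.HyI ρ σ ι α a b c q)

include H

/-- The block moves are products of two reflections (the limits are hypotheses). -/
theorem blk_memI_of [Algebra k ℂ] (W : E →ₐ[k] ℂ) (hW : (W : E →+* ℂ) ∈ Bd ρ σ q)
    (hzx : ∀ (W' W'' : E →ₐ[k] ℂ), (W' : E →+* ℂ) ∈ Bd ρ σ q → (W'' : E →+* ℂ) ∈ Bd ρ σ q →
      W' = cmp W ρ → W'' = cmp W' ρ → ∀ {b' c' : kˣ} {j l : Oct a b c}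
      (h : Trip a b' c' gi j l) {X1 X2 X3 : Qt (up ℂ a) (up ℂ b')}, nrd X1 = 1 → nrd X2 = 1 →
      nrd X3 = 1 → RQ a b' (W α) (W (algebraMap L E q)) X1 →
      RQ a b' (W α) (W' (algebraMap L E q)) X2 → RQ a b' (W α) (W'' (algebraMap L E q)) X3 →
      ∃ X ∈ cl (Bd ρ σ q) (D4Y.RsI ρ σ ι α a b c q),
        (∀ y : OctL ℂ a b' c', act (X ⟨W, hW⟩) (tripO ℂ h y) =
          tripO ℂ h ⟨X1 * y.fst * star X3, y.snd * star X2⟩) ∧
        ∀ V : Bd ρ σ q, V.1.comp (algebraMap k E) ≠ algebraMap k ℂ → X V = 1)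
    (hz0 : ∀ {b' c' : kˣ} {j l : Oct a b c} (h : Trip a b' c' gi j l)
      {X0 : Qt (up ℂ a) (up ℂ b')}, nrd X0 = 1 → cjq X0 = X0 →
      ∃ X ∈ cl (Bd ρ σ q) (D4Y.RsI ρ σ ι α a b c q),
        (∀ y : OctL ℂ a b' c', act (X ⟨W, hW⟩) (tripO ℂ h y) =
          tripO ℂ h ⟨y.fst, X0 * y.snd⟩) ∧
        ∀ V : Bd ρ σ q, V.1.comp (algebraMap k E) ≠ algebraMap k ℂ → X V = 1)
    (hq' : 0 < (W (ρ (algebraMap L E q))).re)
    {e e' : OctL ℂ a b c} (he : e ∈ VR W ρ α q) (he' : e' ∈ VR W ρ α q) (hB : Blk e e')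
    (hN : Oct.norm e' = Oct.norm e) (h0 : Oct.norm e ≠ 0) :
    ∃ X ∈ cl (Bd ρ σ q) (D4Y.RsI ρ σ ι α a b c q),
      (∀ y : OctL ℂ a b c, act (X ⟨W, hW⟩) y = refl e' (refl e y)) ∧
      ∀ V : Bd ρ σ q, V.1.comp (algebraMap k E) ≠ algebraMap k ℂ → X V = 1 := by
  have hσ : ∀ x, W (σ x) = conj (W x) := hW.1
  have hk : ∀ t : k, conj (algebraMap k ℂ t) = algebraMap k ℂ t := fun t => by
    rw [← W.commutes, ← hσ, σ.commutes]
  have hal : W α * W α = ((up ℂ a : ℂˣ) : ℂ) := by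
    rw [← map_mul, H.α2, W.commutes]
    rfl
  have hc : conj (W α) = -W α := by rw [← hσ, H.σα, map_neg]
  have c0 : conj (W (algebraMap L E q)) = W (algebraMap L E q) := by rw [← hσ, H.σL]
  have c1 : conj (W (ρ (algebraMap L E q))) = W (ρ (algebraMap L E q)) := by
    rw [← hσ, H.comm, H.σL]
  have c2 : conj (W (ρ (ρ (algebraMap L E q)))) = W (ρ (ρ (algebraMap L E q))) := by
    rw [← hσ, H.comm, H.comm, H.σL]
  have hr : W (algebraMap L E q) * W (ρ (algebraMap L E q)) *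
      W (ρ (ρ (algebraMap L E q))) = 1 := by
    rw [← map_mul, ← map_mul, H.hq, map_one]
  have hs : ((Real.sqrt (W (algebraMap L E q * (algebraMap L E q *
      ρ (algebraMap L E q)))).re : ℝ) : ℂ) ^ 2 =
        W (algebraMap L E q) ^ 2 * W (ρ (algebraMap L E q)) := by
    have e0 : W (algebraMap L E q) = ((W (algebraMap L E q)).re : ℂ) :=
      (Complex.conj_eq_iff_re.1 c0).symm
    have e1 : W (ρ (algebraMap L E q)) = ((W (ρ (algebraMap L E q))).re : ℂ) :=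
      (Complex.conj_eq_iff_re.1 c1).symm
    obtain ⟨x, hx⟩ : ∃ x, x = (W (algebraMap L E q)).re := ⟨_, rfl⟩
    obtain ⟨y, hy⟩ : ∃ y, y = (W (ρ (algebraMap L E q))).re := ⟨_, rfl⟩
    rw [← hx] at e0
    rw [← hy] at e1 hq'
    rw [map_mul, map_mul, e0, e1, ← Complex.ofReal_mul, ← Complex.ofReal_mul, Complex.ofReal_re,
      ← Complex.ofReal_pow, Real.sq_sqrt (by nlinarith [mul_nonneg (sq_nonneg x) hq'.le])]
    push_cast
    ring
  have hP : Mv (a := a) (b := b) (c := c) (W α) (W (algebraMap L E q))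
      (W (ρ (algebraMap L E q))) (W (ρ (ρ (algebraMap L E q))))
      (fun f => ∃ X ∈ cl (Bd ρ σ q) (D4Y.RsI ρ σ ι α a b c q),
        (∀ y : OctL ℂ a b c, act (X ⟨W, hW⟩) y = f y) ∧
        ∀ V : Bd ρ σ q, V.1.comp (algebraMap k E) ≠ algebraMap k ℂ → X V = 1) := by
    refine ⟨?_, ?_, ?_⟩
    · intro b' c' j l h X1 X2 X3 n1 n2 n3 q1 q2 q3 f hf
      obtain ⟨X, hX, hX1, hX4⟩ := hzx (cmp W ρ) (cmp (cmp W ρ) ρ) (D4Y.BdI_rho H _ hW)
        (D4Y.BdI_rho H _ (D4Y.BdI_rho H _ hW)) rfl rfl h n1 n2 n3 q1 q2 q3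
      refine ⟨X, hX, fun y => ?_, hX4⟩
      obtain ⟨y, rfl⟩ := (tripO ℂ h).surjective y
      rw [hX1, hf]
    · intro b' c' j l h X0 n0 q0 f hf
      obtain ⟨X, hX, hX1, hX4⟩ := hz0 h n0 q0
      refine ⟨X, hX, fun y => ?_, hX4⟩
      obtain ⟨y, rfl⟩ := (tripO ℂ h).surjective y
      rw [hX1, hf]
    · rintro f g ⟨X, hX, hX1, hX2⟩ ⟨Y, hY, hY1, hY2⟩
      refine ⟨X * Y, mul_mem_cl hX hY, fun y => ?_, fun V hV => ?_⟩
      · rw [Pi.mul_apply, act_mul, hY1, hX1]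
      · rw [Pi.mul_apply, hX2 V hV, hY2 V hV, mul_one]
  exact blk_core hk hal hc hr c0 c1 c2 hs hP he he' hB hN h0

end final

end H370

end Vale.Agent.P011.D4Z
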