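import Vale.Agent.P011.D4Z.H493.Ev
import Vale.Agent.P011.D4Z.H370.Dens
import Vale.Agent.P011.D4Z.H370.Moves

/-!
Block D4Z, row T3b: the limits of the long elements.
-/

open NumberField Topology

namespace Vale.Agent.P011.D4Z.H370

open Vale.Agent.P011.MPQ Vale.Agent.P011.D4 Vale.Agent.P011.D4.Oct Vale.Agent.P011.D4X
open Vale.Agent.P011.E6 Vale.Agent.P011.D4X.H637
open scoped ComplexConjugate

section ev

variable {k E : Type} [Field k] [Field E] [Algebra k E] {a b c b' c' : kˣ} [Algebra k ℂ]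
  {W : E →ₐ[k] ℂ}

theorem ev_oup (z : Oct a b c) : ev W (oup E z) = oup ℂ z := by
  apply co8_inj
  funext i
  rw [co8_ev]
  fin_cases i <;> exact W.commutes _

theorem ev_one : ev W (1 : OctL E a b c) = 1 := by rw [← oup_one, ev_oup, oup_one]

theorem ev_qemb (i j : Oct a b c) (x : Qt (up E a) (up E b')) :
    ev W (qemb (oup E i) (oup E j) x) = qemb (oup ℂ i) (oup ℂ j) (evq W x) := by
  simp only [qemb, ev_add, ev_smul, ev_mul, ev_one, ev_oup]
  rfl

/-- Base change commutes with the change of coordinates given by a triple. -/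
theorem ev_tripO [NeZero (2 : E)] [NeZero (2 : ℂ)] {i j l : Oct a b c}
    (h : Trip a b' c' i j l) (y : OctL E a b' c') :
    ev W (tripO E h y) = tripO ℂ h (ev W y) := by
  rw [tripO_apply, tripO_apply]
  simp only [emb, ev_add, ev_mul, ev_qemb, ev_oup]
  rfl

end ev

section lin

variable {k E : Type} [Field k] [Field E] [Algebra k E] {a b c b' c' : kˣ}

/-- The projection to the first component. -/
def pr1 : OctL E a b c →ₗ[E] OctL E a b c where
  toFun y := ⟨y.fst, 0⟩
  map_add' x y := by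
    apply Oct.ext
    · rfl
    · exact (add_zero _).symm
  map_smul' t x := by
    apply Oct.ext
    · rfl
    · exact (smul_zero t).symm

/-- Left multiplication of the second component. -/
def lz (x : Qt (up E a) (up E b)) : OctL E a b c →ₗ[E] OctL E a b c where
  toFun y := ⟨0, x * y.snd⟩
  map_add' y z := by
    apply Oct.ext
    · exact (add_zero _).symm
    · exact mul_add _ _ _
  map_smul' t y := by
    apply Oct.ext
    · exact (smul_zero t).symm
    · exact mul_smul_comm _ _ _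

/-- The conjugate by the change of coordinates. -/
noncomputable def cjl [NeZero (2 : E)] {i j l : Oct a b c} (h : Trip a b' c' i j l)
    (f : OctL E a b' c' →ₗ[E] OctL E a b' c') : OctL E a b c →ₗ[E] OctL E a b c :=
  ((tripO E h).toLinearMap.comp f).comp (tripO E h).symm.toLinearMap

theorem cjl_apply [NeZero (2 : E)] {i j l : Oct a b c} (h : Trip a b' c' i j l)
    (f : OctL E a b' c' →ₗ[E] OctL E a b' c') (y : OctL E a b' c') :
    cjl h f (tripO E h y) = tripO E h (f y) := by
  change tripO E h (f ((tripO E h).symm (tripO E h y))) = _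
  rw [LinearEquiv.symm_apply_apply]

theorem matW_add (V : E →+* ℂ) (f g : OctL E a b c →ₗ[E] OctL E a b c) :
    matW V (f + g) = matW V f + matW V g := by
  ext i j
  change V (co8 (f _ + g _) i) = V (co8 (f _) i) + V (co8 (g _) i)
  rw [co8_add, Pi.add_apply, map_add]

theorem matW_smul (V : E →+* ℂ) (t : E) (f : OctL E a b c →ₗ[E] OctL E a b c) :
    matW V (t • f) = V t • matW V f := by
  ext i j
  change V (co8 (t • f _) i) = V t * V (co8 (f _) i)
  rw [co8_smul, Pi.smul_apply, smul_eq_mul, map_mul]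

theorem matW_id (V : E →+* ℂ) : matW V (fun x : OctL E a b c => x) = 1 := by
  ext i j
  change V (co8 (of8 (Pi.single j 1) : OctL E a b c) i) = _
  rw [co8_of8, Matrix.one_apply]
  by_cases h : i = j
  · subst h
    rw [Pi.single_eq_same, map_one, if_pos rfl]
  · rw [Pi.single_eq_of_ne h, map_zero, if_neg h]

/-- The basis of the quaternions. -/
def qe {F : Type} [Field F] {A B : Fˣ} : Fin 4 → Qt A B :=
  ![⟨1, 0, 0, 0⟩, ⟨0, 1, 0, 0⟩, ⟨0, 0, 1, 0⟩, ⟨0, 0, 0, 1⟩]

theorem qe_sum {F : Type} [Field F] {A B : Fˣ} (x : Qt A B) :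
    x = ∑ i, ![x.re, x.imI, x.imJ, x.imK] i • qe i := by
  rw [Fin.sum_univ_four]
  ext <;> simp [qe]

theorem lz_sum (x : Qt (up E a) (up E b)) : (lz x : OctL E a b c →ₗ[E] OctL E a b c) =
    ∑ i, ![x.re, x.imI, x.imJ, x.imK] i • lz (qe i) := by
  apply LinearMap.ext
  intro y
  rw [LinearMap.sum_apply, Fin.sum_univ_four]
  have h := qe_sum x
  rw [Fin.sum_univ_four] at h
  apply Oct.ext
  · change (0 : Qt (up E a) (up E b)) = _ • 0 + _ • 0 + _ • 0 + _ • 0
    simp
  · change x * y.snd = _ • (_ * y.snd) + _ • (_ * y.snd) + _ • (_ * y.snd) + _ • (_ * y.snd)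
    conv_lhs => rw [h]
    simp only [add_mul, smul_mul_assoc]

end lin

section place

variable {k L E : Type} [Field k] [Field L] [Field E] [Algebra k E] [Algebra L E]
  [Algebra k L] [IsScalarTower k L E] {ρ σ : E ≃ₐ[k] E} {q : Lˣ}

/-- The real place under a bad embedding. -/
theorem exists_place {V : E →+* ℂ} (hV : V ∈ Bd ρ σ q) :
    ∃ τ : k →+* ℝ, ∀ t : k, V (algebraMap k E t) = ((τ t : ℝ) : ℂ) := by
  have him : ∀ t : k, (V (algebraMap k E t)).im = 0 := fun t => Bd_im hV (σ.commutes t)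
  refine ⟨{
    toFun := fun t => (V (algebraMap k E t)).re
    map_one' := by simp
    map_mul' := fun x y => by
      rw [map_mul, map_mul, Complex.mul_re, him, him]
      ring
    map_zero' := by simp
    map_add' := fun x y => by
      rw [map_add, map_add, Complex.add_re] }, fun t => ?_⟩
  · apply Complex.ext
    · exact (Complex.ofReal_re _).symm
    · rw [him]
      exact (Complex.ofReal_im _).symm

end place

section lim

variable {k L E : Type} [Field k] [NumberField k] [Field L] [NumberField L] [Field E]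
  [Algebra k L] [Algebra k E] [Algebra L E]
  [IsScalarTower k L E] [NeZero (2 : E)] {ρ σ : E ≃ₐ[k] E} {ρL : L ≃ₐ[k] L} {α : E}
  {a b c : kˣ} {q : Lˣ}

/-- **T3b (x₀ part).** -/
theorem zlim_0 (H : Hy ρ σ ρL α a b c q)
    [Algebra k ℂ] (W : E →ₐ[k] ℂ) (hW : (W : E →+* ℂ) ∈ Bd ρ σ q)
    {b' c' : kˣ} {j l : Oct a b c} (h : Trip a b' c' gi j l) [NeZero (2 : ℂ)]
    {X0 : Qt (up ℂ a) (up ℂ b')} (n0 : nrd X0 = 1) (r0 : cjq X0 = X0) :
    ∃ X ∈ cl (Bd ρ σ q) (Rs ρ σ α a b c q),
      (∀ y : OctL ℂ a b' c', act (X ⟨W, hW⟩) (tripO ℂ h y) = tripO ℂ h ⟨y.fst, X0 * y.snd⟩) ∧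
      ∀ V : Bd ρ σ q, V.1.comp (algebraMap k E) ≠ algebraMap k ℂ → X V = 1 := by
  classical
  choose pl hpl using fun V : Bd ρ σ q => exists_place (k := k) V.2
  -- the continuous family
  let Φ : ((k →+* ℝ) → Fin 4 → ℝ) → Bd ρ σ q → Matrix (Fin 8) (Fin 8) ℂ := fun p V =>
    matW V.1 (cjl h (pr1 : OctL E a b' c' →ₗ[E] OctL E a b' c')) +
      ∑ i, ((p (pl V) i : ℝ) : ℂ) • matW V.1 (cjl h (lz (qe i) :
        OctL E a b' c' →ₗ[E] OctL E a b' c'))
  have hΦ : Continuous Φ := by
    refine continuous_pi fun V => ?_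
    simp only [Φ]
    fun_prop
  let co : Qt a b' → (k →+* ℝ) → Fin 4 → ℝ := fun x τ => ![τ x.re, τ x.imI, τ x.imJ, τ x.imK]
  -- the values at the rational points
  have hΦr : ∀ x : Qt a b', nrd x = 1 →
      Φ (co x) ∈ {X | ∃ z ∈ Rs ρ σ α a b c q, X = mat (Bd ρ σ q) z} := by
    intro x hx
    obtain ⟨g, hg, h1⟩ := move_0 H h hx
    refine ⟨g, hg, ?_⟩
    funext V
    have e1 : (g : OctL E a b c →ₗ[E] OctL E a b c) = cjl h pr1 +
        ∑ i, ![(qup E x).re, (qup E x).imI, (qup E x).imJ, (qup E x).imK] i •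
          cjl h (lz (qe i)) := by
      apply LinearMap.ext
      intro y
      obtain ⟨y, rfl⟩ := (tripO E h).surjective y
      have e2 : (∑ i, ![(qup E x).re, (qup E x).imI, (qup E x).imJ, (qup E x).imK] i •
          cjl h (lz (qe i))) (tripO E h y) = tripO E h (lz (qup E x) y) := by
        rw [lz_sum (qup E x)]
        simp only [Fin.sum_univ_four, LinearMap.add_apply, LinearMap.smul_apply, cjl_apply,
          map_add, map_smul]
      rw [LinearMap.add_apply, e2, cjl_apply, ← map_add]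
      change g (tripO E h y) = _
      rw [h1]
      congr 1
      apply Oct.ext
      · exact (add_zero _).symm
      · exact (zero_add _).symm
    change _ = matW V.1 (g : OctL E a b c →ₗ[E] OctL E a b c)
    rw [e1, matW_add]
    simp only [Φ, co]
    congr 1
    simp only [Fin.sum_univ_four, matW_add, matW_smul, Matrix.cons_val]
    have e3 : ∀ t : k, V.1 (algebraMap k E t) = ((pl V t : ℝ) : ℂ) := hpl V
    simp only [← e3]
    rfl
  -- the limit point
  have hWt : ∀ t : k, algebraMap k ℂ t = ((pl ⟨W, hW⟩ t : ℝ) : ℂ) := fun t => by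
    rw [← hpl ⟨W, hW⟩ t]
    exact (W.commutes t).symm
  have hre : ∀ z : ℂ, conj z = z → ((z.re : ℝ) : ℂ) = z := fun z hz =>
    Complex.conj_eq_iff_re.1 hz
  have x1 : ((X0.re.re : ℝ) : ℂ) = X0.re := hre _ (congrArg (fun X => X.re) r0)
  have x2 : ((X0.imI.re : ℝ) : ℂ) = X0.imI := hre _ (congrArg (fun X => X.imI) r0)
  have x3 : ((X0.imJ.re : ℝ) : ℂ) = X0.imJ := hre _ (congrArg (fun X => X.imJ) r0)
  have x4 : ((X0.imK.re : ℝ) : ℂ) = X0.imK := hre _ (congrArg (fun X => X.imK) r0)
  let Xr : ∀ τ : k →+* ℝ, QuaternionAlgebra ℝ (τ a) 0 (τ b') := fun τ =>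
    if τ = pl ⟨W, hW⟩ then ⟨X0.re.re, X0.imI.re, X0.imJ.re, X0.imK.re⟩ else ⟨1, 0, 0, 0⟩
  have hXr : ∀ τ ∈ (Finset.univ : Finset (k →+* ℝ)), qn (Xr τ) = 1 := by
    intro τ _
    simp only [Xr]
    split_ifs with hτ
    · subst hτ
      apply Complex.ofReal_injective
      refine Eq.trans ?_ (n0.trans Complex.ofReal_one.symm)
      have ha : ((up ℂ a : ℂˣ) : ℂ) = ((pl ⟨W, hW⟩ a : ℝ) : ℂ) := hWt a
      have hb : ((up ℂ b' : ℂˣ) : ℂ) = ((pl ⟨W, hW⟩ b' : ℝ) : ℂ) := hWt b'
      simp only [qn, nrd, ha, hb]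
      push_cast
      rw [x1, x2, x3, x4]
    · simp [qn]
  let p0 : (k →+* ℝ) → Fin 4 → ℝ := fun τ => ![(Xr τ).re, (Xr τ).imI, (Xr τ).imJ, (Xr τ).imK]
  have hp0 : p0 ∈ closure {p | ∃ x : Qt a b', nrd x = 1 ∧ p = co x} := by
    rw [Metric.mem_closure_iff]
    intro ε hε
    obtain ⟨x, hx, hx'⟩ := exists_sl1_near Finset.univ Xr hXr hε
    refine ⟨co x, ⟨x, hx, rfl⟩, ?_⟩
    rw [dist_comm, dist_pi_lt_iff hε]
    intro τ
    rw [dist_pi_lt_iff hε]
    obtain ⟨y1, y2, y3, y4⟩ := hx' τ (Finset.mem_univ τ)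
    intro i
    rw [Real.dist_eq]
    fin_cases i
    · exact y1
    · exact y2
    · exact y3
    · exact y4
  refine ⟨Φ p0, map_mem_closure hΦ hp0 ?_, fun y => ?_, fun V hV => ?_⟩
  · rintro p ⟨x, hx, rfl⟩
    exact hΦr x hx
  · -- the value at `W`
    have hp : ∀ i, ((p0 (pl ⟨W, hW⟩) i : ℝ) : ℂ) = ![X0.re, X0.imI, X0.imJ, X0.imK] i := by
      intro i
      simp only [p0, Xr]
      fin_cases i
      · exact x1
      · exact x2
      · exact x3
      · exact x4
    have hact : ∀ (M : Matrix (Fin 8) (Fin 8) ℂ) (M' : Fin 4 → Matrix (Fin 8) (Fin 8) ℂ)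
        (t : Fin 4 → ℂ) (y : OctL ℂ a b c), act (M + ∑ i, t i • M' i) y =
          act M y + ∑ i, t i • act (M' i) y := by
      intro M M' t y
      have a1 : ∀ (M N : Matrix (Fin 8) (Fin 8) ℂ), act (M + N) y = act M y + act N y := by
        intro M N
        rw [act_apply, act_apply, act_apply, Matrix.add_mulVec, of8_add]
      have a2 : ∀ (t : ℂ) (M : Matrix (Fin 8) (Fin 8) ℂ), act (t • M) y = t • act M y := by
        intro t M
        rw [act_apply, act_apply, Matrix.smul_mulVec, of8_smul]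
      rw [a1, Fin.sum_univ_four, Fin.sum_univ_four, a1, a1, a1, a2, a2, a2, a2]
    have hΦW : Φ p0 ⟨W, hW⟩ = matW (W : E →+* ℂ) (cjl h pr1) +
        ∑ i, ![X0.re, X0.imI, X0.imJ, X0.imK] i • matW (W : E →+* ℂ) (cjl h (lz (qe i))) := by
      simp only [Φ]
      congr 1
      exact Finset.sum_congr rfl fun i _ => by rw [hp i]
    have key : ∀ y : OctL E a b' c', act (Φ p0 ⟨W, hW⟩) (tripO ℂ h (ev W y)) =
        tripO ℂ h ⟨(ev W y).fst, X0 * (ev W y).snd⟩ := by
      intro y
      rw [hΦW, hact, ← ev_tripO, act_matW, cjl_apply, ev_tripO]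
      have e4 : ∀ i, act (matW (W : E →+* ℂ) (cjl h (lz (qe i)))) (ev W (tripO E h y)) =
          tripO ℂ h (ev W (lz (qe i) y)) := by
        intro i
        rw [act_matW, cjl_apply, ev_tripO]
      simp only [e4]
      rw [Fin.sum_univ_four]
      simp only [← map_smul, ← map_add]
      congr 1
      have e5 := qe_sum X0
      rw [Fin.sum_univ_four] at e5
      have e6 : ∀ i, evq W (qe i : Qt (up E a) (up E b')) = qe i := by
        intro i
        fin_cases i <;> ext <;> simp [evq, qe]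
      apply Oct.ext
      · change evq W y.fst + (_ • evq W 0 + _ • evq W 0 + _ • evq W 0 + _ • evq W 0) = evq W y.fst
        have e7 : evq W (0 : Qt (up E a) (up E b')) = 0 := by
          ext <;> simp [evq]
        rw [e7]
        simp
      · change evq W 0 + (_ • evq W (_ * y.snd) + _ • evq W (_ * y.snd) + _ • evq W (_ * y.snd) +
          _ • evq W (_ * y.snd)) = X0 * evq W y.snd
        have e7 : evq W (0 : Qt (up E a) (up E b')) = 0 := by
          ext <;> simp [evq]
        rw [e7, zero_add, evq_mul, evq_mul, evq_mul, evq_mul, e6, e6, e6, e6]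
        conv_rhs => rw [e5]
        simp only [add_mul, smul_mul_assoc]
    refine ev_induction (W := W) (P := fun y => act (Φ p0 ⟨W, hW⟩) (tripO ℂ h y) =
      tripO ℂ h ⟨y.fst, X0 * y.snd⟩) key (fun x y hx hy => ?_) (fun t x hx => ?_) y
    · rw [map_add, map_add, hx, hy, ← map_add]
      congr 1
      apply Oct.ext
      · rfl
      · exact (mul_add _ _ _).symm
    · rw [map_smul, map_smul, hx, ← map_smul]
      congr 1
      apply Oct.ext
      · rfl
      · exact (mul_smul_comm _ _ _).symm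
  · -- the other places
    have hne : pl V ≠ pl ⟨W, hW⟩ := by
      intro he
      apply hV
      ext t
      rw [RingHom.comp_apply, hpl, he, hWt]
    have hp : ∀ i, p0 (pl V) i = ![1, 0, 0, 0] i := by
      intro i
      simp only [p0, Xr, if_neg hne]
    have e1 : Φ p0 V = matW V.1 (cjl h pr1) + matW V.1 (cjl h (lz (qe 0))) := by
      simp only [Φ, hp]
      congr 1
      rw [Fin.sum_univ_four]
      simp
    rw [e1, ← matW_add, ← matW_id V.1 (a := a) (b := b) (c := c)]
    congr 1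
    funext y
    obtain ⟨y, rfl⟩ := (tripO E h).surjective y
    rw [LinearMap.add_apply, cjl_apply, cjl_apply, ← map_add]
    congr 1
    have e2 : (qe 0 : Qt (up E a) (up E b')) = 1 := by
      ext <;> simp [qe]
    apply Oct.ext
    · exact add_zero _
    · change 0 + qe 0 * y.snd = y.snd
      rw [e2, one_mul, zero_add]

end lim

end Vale.Agent.P011.D4Z.H370
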