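import Vale.Agent.P011.D4Y.H691.TopOf
import Vale.Agent.P011.D4Y.H657.Bas

/-!
Block D4Z, 6D4 case, row T3b (membership): the elements `z(x₀, x; 1)` of norm one, for any
triple, lie in the finite residual.
-/

open NumberField Topology

namespace Vale.Agent.P011.D4Z.H370

open Vale.Agent.P011.MPQ Vale.Agent.P011.D4 Vale.Agent.P011.D4.Oct Vale.Agent.P011.D4X
open Vale.Agent.P011.D4Y Vale.Agent.P011.E6

variable {k L E : Type} [Field k] [NumberField k] [Field L] [NumberField L] [Field E]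
  [Algebra k L] [Algebra k E] [Algebra L E]
  [IsScalarTower k L E] [NeZero (2 : E)] {ρ σ ι : E ≃ₐ[k] E} {α : E}
  {a b c : kˣ} {q : Lˣ}

/-- **The elements `z(x₀, x; 1)`** of any triple lie in the finite residual. -/
theorem movesI_mem (H : HyI ρ σ ι α a b c q) (ho : HOdd a q) {b' c' : kˣ} {j l : Oct a b c}
    (h : Trip a b' c' gi j l) {x0 : Qt a b'} {x : Qt (up L a) (q * up L b')}
    (h0 : nrd x0 = 1) (h1 : nrd x = 1) :
    ∃ g ∈ RsI ρ σ ι α a b c q, ∀ y : OctL E a b' c', g (tripO E h y) =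
      tripO E h ⟨psiL α q x * y.fst * star (qmap ρ (qmap ρ (psiL α q x))),
        qup E x0 * y.snd * star (qmap ρ (psiL α q x))⟩ := by
  have h2 : NeZero (2 : k) := ⟨two_ne_zero⟩
  obtain ⟨z, hz, hk, hzy⟩ := D4Y.exists_zI (hyTripI H h) x0 x 1 (by
    rw [h0, h1]
    simp)
  have hk1 : kapI z = 1 := kapI_eq (hk 1 (by rw [h1]; simp))
  have hkap : kapI (cjAI ρ σ ι α q h z) = 1 := by rw [kapI_cjAI, hk1]
  have hst : cjAI ρ σ ι α q h z ∈ stabI ρ σ ι α q h := (cjAI_mem_stabI h).2 hz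
  have hN : IsNI ρ σ ι α a b c q (cjAI ρ σ ι α q h z) := by
    refine D4Y.stab_N H ho h hst (κ := 1) ?_ (Subgroup.one_mem _)
    rw [← hkap]
    exact isKapI_kapI _
  refine ⟨(cjAI ρ σ ι α q h z).1, mem_of_isNI H _ (mem_GTI_of_kapI_one hkap) hN, fun y => ?_⟩
  have h3 : (cjAI ρ σ ι α q h z).1 (tripO E h y) = tripO E h (z.1 y) := by
    change cjE (tripO E h) z.1 (tripO E h y) = _
    exact cjE_apply _ _ _
  rw [h3, hzy]
  congr 1
  simp only [zFI, h1, map_one, mul_one, Units.val_one, div_one, one_smul]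

/-- The short elements. -/
theorem moveI_x (H : HyI ρ σ ι α a b c q) (ho : HOdd a q) {b' c' : kˣ} {j l : Oct a b c}
    (h : Trip a b' c' gi j l) {x : Qt (up L a) (q * up L b')} (h1 : nrd x = 1) :
    ∃ g ∈ RsI ρ σ ι α a b c q, ∀ y : OctL E a b' c', g (tripO E h y) =
      tripO E h ⟨psiL α q x * y.fst * star (qmap ρ (qmap ρ (psiL α q x))),
        y.snd * star (qmap ρ (psiL α q x))⟩ := by
  obtain ⟨g, hg, h2⟩ := movesI_mem H ho h (x0 := 1) nrd_one h1
  refine ⟨g, hg, fun y => ?_⟩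
  rw [h2, qup_one, one_mul]

/-- The long elements. -/
theorem moveI_0 (H : HyI ρ σ ι α a b c q) (ho : HOdd a q) {b' c' : kˣ} {j l : Oct a b c}
    (h : Trip a b' c' gi j l) {x0 : Qt a b'} (h0 : nrd x0 = 1) :
    ∃ g ∈ RsI ρ σ ι α a b c q, ∀ y : OctL E a b' c', g (tripO E h y) =
      tripO E h ⟨y.fst, qup E x0 * y.snd⟩ := by
  obtain ⟨g, hg, h2⟩ := movesI_mem H ho h (x := 1) h0 nrd_one
  have e : (psiL α q (1 : Qt (up L a) (q * up L b')) : Qt (up E a) (up E b')) = 1 := by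
    apply QuaternionAlgebra.ext <;> simp [psiL]
  refine ⟨g, hg, fun y => ?_⟩
  rw [h2, e, qmap_one, qmap_one, star_one, mul_one, one_mul, mul_one]

end Vale.Agent.P011.D4Z.H370
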